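import Vale.Agent.P167.N.Kit
import Vale.Agent.P167.N.H398.Q.Mac
import Vale.Agent.P167.N.H601.LG.Wt
import Vale.Agent.P167.H601.M.Top

/-! generated from Vale.Agent.P167.H601.M.Top (q < 1 port) -/

set_option autoImplicit false

namespace Vale.Agent.P167.N.H601.M

open Vale.Agent.P167.H601.M Vale.Agent.P167.H601

open Finset

open Vale.Agent.P167.E6 (IsPolygon Encloses)

open Vale.Agent.P167.BR

open Vale.Agent.P167.FK (Bq Ex Good RSW cf)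

open Vale.Agent.P167.H166 (bxx mem_bxx)

open Vale.Agent.P167.H562.QM (MajA OneC Nr)

open Vale.Agent.P167.H398.Q (macro_F)

open Vale.Agent.P167.H975 (TX TX_loc)

open Vale.Agent.P167.H601.LG

open Vale.Agent.P167.H601.S2

/-- **The number of the large segments of the domain**, off the boxes around finitely many points. -/
theorem top_num {Q : ℝ} (hQ : Kit Q) (h : RSW Q) (m : ℕ) : ∃ e1 : ℝ, 0 < e1 ∧
    ∀ κ R s : ℝ, 0 < κ → 0 ≤ R → ∃ (C : ℝ) (n₀ : ℕ), 0 < C ∧ ∀ n : ℕ, n₀ ≤ n →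
      ∀ (x₀ : ℤ × ℤ) (D : Finset (ℤ × ℤ)), (∀ v ∈ D, (nm (v - x₀) : ℝ) ≤ R * n) →
      ∀ X : Finset (ℤ × ℤ), X.card ≤ m → ∃ Nf : Cfg → ℕ,
      (∀ ω ω' : Cfg, (∀ v, (∀ x ∈ X, e1 * κ / (1 + |s|) * n < (nm (v - x) : ℝ)) → ω v = ω' v) →
        Nf ω = Nf ω') ∧
      (∀ ω, MajA D (κ * n) ω (Nf ω)) ∧
      ∀ (η : Cfg) (m₀ : ℤ), Good η →
        (∀ (x : ℤ × ℤ) (R : ℤ), 1 ≤ R → R ≤ m₀ → (∃ v ∈ D, nm (x - v) ≤ m₀) → OneC x R D η) →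
        κ * n ≤ m₀ → ∀ G : Cfg → ℝ, (∀ ω, 0 ≤ G ω) →
        (∀ ω ω' : Cfg, (∀ v, ¬ (v ∈ D ∧ ∀ x ∈ X, e1 * κ / (1 + |s|) * n < (nm (v - x) : ℝ)) →
          ω v = ω' v) → G ω = G ω') →
        Ex Q D η (fun ω => G ω * Real.exp (s * (Nf ω : ℝ))) ≤ C * Ex Q D η G := by
  have hQ_pos := hQ.pos
  obtain ⟨e1, he1, H⟩ := Vale.Agent.P167.N.H398.Q.macro_F hQ h m
  refine ⟨e1, he1, fun κ R s hκ hR => ?_⟩
  obtain ⟨C, ρ0, hC, hρ0, H⟩ := H κ R s hκ hR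
  refine ⟨C, ⌈ρ0⌉₊, hC, fun n hn x₀ D hD X hX => ?_⟩
  obtain ⟨x, hx⟩ := exists_seq hX
  obtain ⟨Nf, n1, n2, n3⟩ := H n ((Nat.le_ceil _).trans (by exact_mod_cast hn)) x₀ D hD x
  have key : ∀ v, (∀ i, e1 * κ / (1 + |s|) * n < (nm (v - x i) : ℝ)) →
      ∀ y ∈ X, e1 * κ / (1 + |s|) * n < (nm (v - y) : ℝ) := by
    intro v hv y hy
    obtain ⟨i, rfl⟩ := hx y hy
    exact hv i
  refine ⟨Nf, fun ω ω' hω => n1 ω ω' fun v _ hv => hω v (key v hv), n2,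
    fun η m₀ hη hone hm G hG0 hG => ?_⟩
  refine n3 D η hη (fun y a ha ha' hy => ?_) G hG0 fun ω ω' hω => ?_
  · have h5 : y ∈ bxx y a := by
      rw [mem_bxx, sub_self]
      show max |(0 : ℤ)| |(0 : ℤ)| ≤ a
      simp
      omega
    obtain ⟨v, hv, hv'⟩ := (hy y h5).1
    have h6 : (a : ℝ) ≤ m₀ := by
      have : 0 ≤ κ * n := by positivity
      linarith
    have h6' : a ≤ m₀ := by exact_mod_cast h6
    refine hone y a ha h6' ⟨v, hv, ?_⟩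
    have h7 : (nm (y - v) : ℝ) ≤ m₀ := hv'.trans hm
    exact_mod_cast h7
  · exact hG ω ω' fun v hv => hω v fun h' => hv ⟨h'.1, key v h'.2.2⟩

variable {n N L k : ℕ} {q : ZMod N → ℤ × ℤ} {D : Finset (ℤ × ℤ)} {τ : ℕ → ℤ} {ω : Cfg}
  {θ β : ℝ}

/-- The pieces with weight different from one which are in none of the boxes. -/
theorem card_zone (h0 : 0 < θ) (h1 : Ang θ) (hG : GeoN n N q τ)
    (hq : IsPolygon q) (hD : Encloses q D) {r' : ℤ} (hr' : r' ≤ n) {t : ℝ} (ht : t ≤ r' / 16)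
    {M : ℕ} (hM : MajA D t ω M) {S : Finset (Finset Ed)} (hS : S ⊆ pcs ω D)
    (hw : ∀ A ∈ S, wJ θ β q D k τ A ≠ 1 ∧ ∀ j, j < N → Spe τ k j →
      ¬ ∀ e ∈ A, hdv e ∈ Bq (q (j : ZMod N)) r') : S.card ≤ M := by
  have h1_lt := h1.lt
  refine hM _ (fun A hA => H167.isSeg (hS hA)) (fun A hA B hB hne => ?_) fun A hA => ?_
  · rw [disjoint_left]
    intro e h1 h2
    exact hne (eq_of_mem_pcs (hS hA) (hS hB) h1 h2)
  · obtain ⟨hl, -⟩ := Vale.Agent.P167.N.H601.LG.turn_of_ne_one h0 h1 hq hD (hS hA) (hw A hA).1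
    obtain ⟨e, he, h3⟩ := exists_entry (hS hA) hl
    have h4 : hdv e ∈ D := (mem_eds.1 (subset_eds (hS hA) he)).resolve_right h3
    refine ⟨⟨e, he, h4⟩, ?_⟩
    obtain ⟨f, hf, f', hf', h5⟩ := Vale.Agent.P167.N.H601.LG.large_of_ne_one h0 h1 hG hq hD (hS hA) (hw A hA).1 hr'
      (hw A hA).2
    exact ⟨f, hf, f', hf', ht.trans h5⟩

end Vale.Agent.P167.N.H601.M
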